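import Vale.Agent.P160R67.Main

open MeasureTheory Filter Topology Vale.Agent.P160R

/-- **P160.** The random symmetric sign matrix `A_n` exists; on every probability space carrying it
the event `det A_n = 0` has the same probability `q n`; and `q n ^ (1 / n) → 1 / 2`, with the upper
bound `c ^ n` for every `c > 1 / 2` and the lower bound `(1 - o(1)) n² 2⁻ⁿ`. -/
theorem Vale.Agent.Results.P160.ARandomMatrix.result : ∃ q : ℕ → ℝ,
    (∀ n : ℕ, ∃ (Ω : Type) (_ : MeasurableSpace Ω) (P : Measure Ω)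
      (A : Ω → Matrix (Fin n) (Fin n) ℝ), IsSignMatrix P A) ∧
    (∀ (n : ℕ) (Ω : Type*) [MeasurableSpace Ω] (P : Measure Ω) (A : Ω → Matrix (Fin n) (Fin n) ℝ),
      IsSignMatrix P A →
        NullMeasurableSet {ω | (A ω).det = 0} P ∧ P.real {ω | (A ω).det = 0} = q n) ∧
    Tendsto (fun n : ℕ => q n ^ (1 / (n : ℝ))) atTop (𝓝 (1 / 2)) ∧
    (∀ c : ℝ, 1 / 2 < c → ∀ᶠ n : ℕ in atTop, q n ≤ c ^ n) ∧
    ∀ ε : ℝ, 0 < ε → ∀ᶠ n : ℕ in atTop, (1 - ε) * (n : ℝ) ^ 2 * (1 / 2) ^ n ≤ q n :=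
  main
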